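import Vale.Agent.P161.Crit.CritMain
import Vale.Agent.P161.Converse

/-!
# P161: the free Ising state is a factor of IID exactly up to the reconstruction threshold
-/

namespace Vale.Agent.Results.P161.FactorThreshold

open MeasureTheory Vale.Agent.P161

theorem result : ∀ (d : ℕ), 3 ≤ d → ∀ (V : Type) [Countable V] (G : SimpleGraph V),
    G.IsTree → (∀ v, (G.neighborSet v).ncard = d) →
    ∀ β : ℝ, 0 ≤ β →
      (∃ μ : Measure (V → Bool), IsFreeIsing G (Real.tanh β) μ) ∧
        ∀ μ : Measure (V → Bool), IsFreeIsing G (Real.tanh β) μ →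
          (IsFactorOfIID G μ ↔ ((d : ℝ) - 1) * Real.tanh β ^ 2 ≤ 1) := by
  intro d hd V _ G hG hreg β hβ
  have h0 : 0 ≤ Real.tanh β := tanh_nonneg' hβ
  have h1 : Real.tanh β < 1 := Real.tanh_lt_one β
  refine ⟨exists_isFreeIsing hG hd hreg h0 h1, fun μ hμ => ⟨fun hf => ?_, fun hθ =>
    isFactorOfIID_upto_threshold hG hd hreg h0 hθ hμ⟩⟩
  by_contra hc
  exact not_factor_above hG hd hreg h0 h1 (lt_of_not_ge hc) hμ hf

end Vale.Agent.Results.P161.FactorThreshold
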